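import Vale.Agent.N197T.Main

/-!
# The tensor square conjecture
-/

namespace Vale.Agent.Results.P197.A0TensorSquare

open Vale.Agent.P197

/-- (1) The tensor square conjecture: for every `n ≥ 3` other than `4` and `9` there is a
partition `λ` of `n` with `g(λ, λ, ν) > 0` for all partitions `ν` of `n`.
(2) The same in terms of representations: the symmetric group of degree `n` has an irreducible
complex representation whose tensor square contains every irreducible complex representation. -/
theorem result :
    (∀ n : ℕ, 3 ≤ n → n ≠ 4 → n ≠ 9 → ∃ lam : YoungDiagram, lam.card = n ∧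
      ∀ ν : YoungDiagram, ν.card = n → 0 < kron n lam lam ν) ∧
    ∀ n : ℕ, 3 ≤ n → n ≠ 4 → n ≠ 9 → ∃ (V : Type) (_ : AddCommGroup V) (_ : Module ℂ V)
      (ρ : Representation ℂ (Equiv.Perm (Fin n)) V), ρ.IsIrreducible ∧
      ∀ (W : Type) [AddCommGroup W] [Module ℂ W]
        (σ : Representation ℂ (Equiv.Perm (Fin n)) W), σ.IsIrreducible →
        ∃ f : σ.IntertwiningMap (ρ.tprod ρ), Function.Injective f :=
  ⟨N197T.tensor_square, N197T.tensor_square_rep⟩

end Vale.Agent.Results.P197.A0TensorSquare
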